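import Vale.Agent.P088.R2.H794.F4.Res
import Vale.Agent.P088.R2.H455.S4.Est4

/-!
# P088, stage 4: the hand-in from the two-slot estimate
-/

open Manifold Set Vale.Agent.P088.B Vale.Agent.P088.B2
open scoped ContDiff Matrix

namespace Vale.Agent.P088.R2.H794.F4

universe u

theorem full4 (hE : S4.RowESTh) {n N : ℕ} [NeZero n] (hn : 3 ≤ n) (hN : 1 ≤ N) :
    -- one manifold: Q1
    (∀ {M : Type u} [TopologicalSpace M] [ChartedSpace (EuclideanHalfSpace n) M]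
      [IsManifold (𝓡∂ n) ∞ M] [T2Space M] [CompactSpace M] [ConnectedSpace M]
      (Z : At n M) (_ : Z = at_ n M) (Γ O : Set M) (_ : IsOpen O) (_ : Γ = O ∩ bd Z)
      (_ : Γ.Nonempty) (P Q : Pair Z N), B.SameData Γ P Q → Related Γ P Q) ∧
    -- two manifolds which share a boundary patch
    (∀ {M₁ M₂ : Type u} [TopologicalSpace M₁] [ChartedSpace (EuclideanHalfSpace n) M₁]
      [IsManifold (𝓡∂ n) ∞ M₁] [T2Space M₁] [CompactSpace M₁] [ConnectedSpace M₁]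
      [TopologicalSpace M₂] [ChartedSpace (EuclideanHalfSpace n) M₂]
      [IsManifold (𝓡∂ n) ∞ M₂] [T2Space M₂] [CompactSpace M₂] [ConnectedSpace M₂]
      (Z₁ : At n M₁) (_ : Z₁ = at_ n M₁) (Z₂ : At n M₂) (_ : Z₂ = at_ n M₂)
      (Γ₁ O₁ : Set M₁) (_ : IsOpen O₁) (_ : Γ₁ = O₁ ∩ bd Z₁) (_ : Γ₁.Nonempty)
      (Γ₂ O₂ : Set M₂) (_ : IsOpen O₂) (_ : Γ₂ = O₂ ∩ bd Z₂) (ψ : M₂ → M₁)
      (_ : Iden N Z₁ Z₂ Γ₁ Γ₂ ψ) (P : Pair Z₁ N) (Q : Pair Z₂ N),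
      SameData₂ Γ₁ Γ₂ ψ P Q → UniqueRel₂ Γ₁ Γ₂ ψ P Q) :=
  final4 (S4.core4_esth hE) hn hN

end Vale.Agent.P088.R2.H794.F4
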